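import Vale.Agent.Results.P199.ElemAmenableUnits
import Vale.Agent.Results.P199.SolvableLie
import Vale.Agent.Results.P199.SolvableUnits

/-!
Kurosh's problem for division rings: the three results of this folder in one statement.
-/

namespace Vale.Agent.Results.P199.AAllResults

open Vale.Agent.Lib.P199 Vale.Agent.Results.P199.ElemAmenableUnits

universe u v

/-- Let `D` be a division ring algebraic over a central subfield `k` (for instance its centre).
(1) The `k`-subalgebra generated by an elementary amenable group of units is locally finite.
(2) The associative subalgebra generated by a solvable Lie subalgebra is locally finite.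
(3) A finite set whose nonzero elements generate a solvable group of units generates a
finite-dimensional `k`-subalgebra. -/
theorem result {k : Type v} {D : Type u} [Field k] [DivisionRing D] [Algebra k D]
    [Algebra.IsAlgebraic k D] :
    (∀ G : Subgroup Dˣ, IsElemAmenable G →
      ∀ T : Set D, T.Finite → T ⊆ Algebra.adjoin k (Units.val '' (G : Set Dˣ)) →
      FiniteDimensional k (Algebra.adjoin k T)) ∧
    (∀ (N : ℕ) (L : ℕ → Submodule k D), (∀ i, L (i + 1) ≤ L i) →
      (∀ i, ∀ x ∈ L i, ∀ y ∈ L i, x * y - y * x ∈ L (i + 1)) → L N = ⊥ →
      ∀ T : Set D, T.Finite → T ⊆ Algebra.adjoin k (L 0 : Set D) →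
      FiniteDimensional k (Algebra.adjoin k T)) ∧
    (∀ S : Set D, S.Finite →
      Group.IsSolvable (Subgroup.closure {u : Dˣ | (u : D) ∈ S}) →
      FiniteDimensional k (Algebra.adjoin k S)) :=
  ⟨fun G hG T hT hTG => ElemAmenableUnits.result G hG T hT hTG,
    fun N L hanti hcomm hN T hT hTL => SolvableLie.result N L hanti hcomm hN T hT hTL,
    fun S hS _ => finiteDimensional_adjoin_of_extGood S hS (extGood_of_isSolvable _)⟩

end Vale.Agent.Results.P199.AAllResults
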